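import Vale.Agent.Lib.P308.helper16.Count

/-!
# P308: translation between Mathlib matchings (subgraphs) and mate functions,
and the final counting statement
-/

namespace Vale.Agent.Lib.P308.helper16

open Function Finset

variable {V : Type*} {G : SimpleGraph V}

open Classical in
/-- mate function of a matching subgraph -/
noncomputable def mateOf (M : G.Subgraph) (hM : M.IsMatching) : V → V :=
  fun v => if h : v ∈ M.verts then (hM h).choose else v

theorem mateOf_adj (M : G.Subgraph) (hM : M.IsMatching) {v : V} (h : v ∈ M.verts) :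
    M.Adj v (mateOf M hM v) := by
  simp only [mateOf, dif_pos h]
  exact (hM h).choose_spec.1

theorem mateOf_eq (M : G.Subgraph) (hM : M.IsMatching) {v w : V} (hvw : M.Adj v w) :
    mateOf M hM v = w := by
  have h : v ∈ M.verts := M.edge_vert hvw
  simp only [mateOf, dif_pos h]
  exact ((hM h).choose_spec.2 w hvw).symm

theorem mateOf_notMem (M : G.Subgraph) (hM : M.IsMatching) {v : V} (h : v ∉ M.verts) :
    mateOf M hM v = v := by
  simp only [mateOf, dif_neg h]

theorem mateOf_fix_iff (M : G.Subgraph) (hM : M.IsMatching) (v : V) :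
    mateOf M hM v = v ↔ v ∉ M.verts := by
  constructor
  · intro hfix h
    have := mateOf_adj M hM h
    rw [hfix] at this
    exact (M.adj_sub this).ne rfl
  · exact mateOf_notMem M hM

theorem mateOf_isMate (M : G.Subgraph) (hM : M.IsMatching) : IsMate G (mateOf M hM) := by
  constructor
  · intro v
    by_cases h : v ∈ M.verts
    · exact mateOf_eq M hM (mateOf_adj M hM h).symm
    · rw [mateOf_notMem M hM h, mateOf_notMem M hM h]
  · intro v hne
    have h : v ∈ M.verts := by
      by_contra h
      exact hne (mateOf_notMem M hM h)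
    exact M.adj_sub (mateOf_adj M hM h)

theorem mateOf_injective {M M' : G.Subgraph} (hM : M.IsMatching) (hM' : M'.IsMatching)
    (h : mateOf M hM = mateOf M' hM') : M = M' := by
  have hv : ∀ v, v ∈ M.verts ↔ v ∈ M'.verts := by
    intro v
    rw [← not_iff_not, ← mateOf_fix_iff M hM, ← mateOf_fix_iff M' hM', h]
  have hadj : ∀ (N : G.Subgraph) (hN : N.IsMatching) (v w : V),
      N.Adj v w ↔ (v ∈ N.verts ∧ mateOf N hN v = w) := by
    intro N hN v w
    constructor
    · intro h
      exact ⟨N.edge_vert h, mateOf_eq N hN h⟩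
    · rintro ⟨h1, rfl⟩
      exact mateOf_adj N hN h1
  apply SimpleGraph.Subgraph.ext
  · ext v
    exact hv v
  · ext v w
    rw [hadj M hM, hadj M' hM', hv, h]

/-- the perfect matching (as a subgraph) of a perfect mate function -/
def subOf (f : V → V) (hf : IsPerf G f) : G.Subgraph where
  verts := Set.univ
  Adj v w := f v = w
  adj_sub := by
    intro v w h
    rw [← h]
    exact hf.1.adj v (hf.2 v)
  edge_vert := fun _ => Set.mem_univ _
  symm := ⟨by
    intro v w h
    show f w = v
    rw [← h, hf.1.invol]⟩

theorem subOf_isPerfectMatching (f : V → V) (hf : IsPerf G f) :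
    (subOf f hf).IsPerfectMatching := by
  refine ⟨?_, ?_⟩
  · intro v _
    exact ⟨f v, rfl, fun w (h : f v = w) => h.symm⟩
  · intro v
    exact Set.mem_univ v

theorem subOf_injective {f f' : V → V} (hf : IsPerf G f) (hf' : IsPerf G f')
    (h : subOf f hf = subOf f' hf') : f = f' := by
  funext v
  have h1 : (subOf f hf).Adj v (f v) := rfl
  rw [h] at h1
  have h2 : f' v = f v := h1
  exact h2.symm

/-- **Main statement.** In a finite graph with independence number at most `k` that has a
perfect matching, the matchings leaving exactly two vertices uncovered are at most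
`|V|^(4 (k+1)^2)` times as many as the perfect matchings. -/
theorem near_le_poly_perfect (V : Type) [Fintype V] [DecidableEq V] (G : SimpleGraph V) (k : ℕ)
    (hα : G.indepNum ≤ k) (hpm : ∃ M : G.Subgraph, M.IsPerfectMatching) :
    Nat.card {M : G.Subgraph // M.IsMatching ∧ (M.vertsᶜ).ncard = 2} ≤
      (Fintype.card V) ^ (4 * (k + 1) ^ 2) *
        Nat.card {M : G.Subgraph // M.IsPerfectMatching} := by
  classical
  have hα' : ∀ s : Finset V, G.IsIndepSet (s : Set V) → s.card ≤ k :=
    fun s hs => (hs.card_le_indepNum).trans hα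
  have hex : ∃ g, IsPerf G g := by
    obtain ⟨M, hM⟩ := hpm
    refine ⟨mateOf M hM.1, mateOf_isMate M hM.1, ?_⟩
    intro v hfix
    exact (mateOf_fix_iff M hM.1 v).1 hfix (hM.2 v)
  have h1 : Nat.card {M : G.Subgraph // M.IsMatching ∧ (M.vertsᶜ).ncard = 2} ≤
      (nearSet G).card := by
    rw [← Nat.card_eq_finsetCard]
    have hmem : ∀ M : {M : G.Subgraph // M.IsMatching ∧ (M.vertsᶜ).ncard = 2},
        mateOf M.1 M.2.1 ∈ nearSet G := by
      intro M
      simp only [nearSet, mem_filter, mem_univ, true_and]
      refine ⟨mateOf_isMate M.1 M.2.1, ?_⟩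
      have h2 := M.2.2
      have hset : (M.1.vertsᶜ : Set V) =
          ↑(univ.filter (fun v => mateOf M.1 M.2.1 v = v)) := by
        ext v
        simp [mateOf_fix_iff]
      rw [hset, Set.ncard_coe_finset] at h2
      exact h2
    apply Nat.card_le_card_of_injective
      (fun M : {M : G.Subgraph // M.IsMatching ∧ (M.vertsᶜ).ncard = 2} =>
        (⟨mateOf M.1 M.2.1, hmem M⟩ : ↥(nearSet G)))
    intro M M' h
    exact Subtype.ext (mateOf_injective _ _ (congrArg Subtype.val h))
  have h2 : (perfSet G).card ≤ Nat.card {M : G.Subgraph // M.IsPerfectMatching} := by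
    rw [← Nat.card_eq_finsetCard]
    have hmem : ∀ f : ↥(perfSet G), IsPerf G f.1 := by
      intro f
      have := f.2
      simpa [perfSet] using this
    apply Nat.card_le_card_of_injective
      (fun f : ↥(perfSet G) =>
        (⟨subOf f.1 (hmem f), subOf_isPerfectMatching _ _⟩ :
          {M : G.Subgraph // M.IsPerfectMatching}))
    intro f f' h
    exact Subtype.ext (subOf_injective (hmem f) (hmem f') (congrArg Subtype.val h))
  calc Nat.card {M : G.Subgraph // M.IsMatching ∧ (M.vertsᶜ).ncard = 2}
      ≤ (nearSet G).card := h1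
    _ ≤ (Fintype.card V) ^ (4 * (k + 1) ^ 2) * (perfSet G).card :=
        card_nearSet_le G k hα' hex
    _ ≤ _ := Nat.mul_le_mul_left _ h2

end Vale.Agent.Lib.P308.helper16
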