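import Vale.Agent.Lib.P308.helper16.Key

/-!
# P308: counting matchings missing two vertices against perfect matchings
-/

namespace Vale.Agent.Lib.P308.helper16

open Function Finset

variable {V : Type*} [DecidableEq V] [Fintype V]

open Classical in
/-- mate functions of matchings that miss exactly two vertices -/
noncomputable def nearSet (G : SimpleGraph V) : Finset (V → V) :=
  univ.filter (fun f => IsMate G f ∧ (univ.filter (fun v => f v = v)).card = 2)

open Classical in
/-- mate functions of perfect matchings -/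
noncomputable def perfSet (G : SimpleGraph V) : Finset (V → V) :=
  univ.filter (fun f => IsPerf G f)

omit [DecidableEq V] [Fintype V] in
theorem exists_cover (D : Finset V) (L : ℕ) (hD : D.card ≤ L) (u₀ : V) :
    ∃ d : Fin L → V, ∀ w ∈ D, ∃ j, d j = w := by
  refine ⟨fun j => D.toList.getD j.val u₀, ?_⟩
  intro w hw
  have hw' : w ∈ D.toList := by simpa using hw
  obtain ⟨i, hi, hiw⟩ := List.mem_iff_getElem.1 hw'
  have hlen : D.toList.length = D.card := by simp
  refine ⟨⟨i, by omega⟩, ?_⟩
  show D.toList.getD i u₀ = w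
  have := List.getD_eq_getElem (l := D.toList) (d := u₀) hi
  rw [this, hiw]

theorem card_nearSet_le (G : SimpleGraph V) (k : ℕ)
    (hα : ∀ s : Finset V, G.IsIndepSet (s : Set V) → s.card ≤ k)
    (hex : ∃ g, IsPerf G g) :
    (nearSet G).card ≤ (Fintype.card V) ^ (4 * (k + 1) ^ 2) * (perfSet G).card := by
  classical
  rcases isEmpty_or_nonempty V with hV | hV
  · have : nearSet G = ∅ := by
      rw [Finset.eq_empty_iff_forall_notMem]
      intro f hf
      simp only [nearSet, mem_filter, mem_univ, true_and] at hf
      have h0 : (univ.filter (fun v => f v = v)).card = 0 := by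
        rw [Finset.card_eq_zero, Finset.eq_empty_iff_forall_notMem]
        intro v
        exact (hV.false v).elim
      omega
    rw [this]
    simp
  set L := 2 * (k + 1) ^ 2 with hL
  have key : ∀ f : V → V, f ∈ nearSet G → ∃ g : V → V, ∃ d : Fin L → V,
      IsPerf G g ∧ ∀ w, g w ≠ f w → ∃ j, d j = w := by
    intro f hf
    simp only [nearSet, mem_filter, mem_univ, true_and] at hf
    obtain ⟨hfm, hcard⟩ := hf
    obtain ⟨u, v, huv, huvs⟩ := Finset.card_eq_two.1 hcard
    have hfix : ∀ w, f w = w ↔ (w = u ∨ w = v) := by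
      intro w
      have : w ∈ univ.filter (fun v => f v = v) ↔ w ∈ ({u, v} : Finset V) := by rw [huvs]
      simpa using this
    obtain ⟨g, hg, hgD⟩ := exists_close_perfect hα hfm hfix hex
    obtain ⟨d, hd⟩ := exists_cover (univ.filter (fun w => g w ≠ f w)) L hgD u
    refine ⟨g, d, hg, ?_⟩
    intro w hw
    exact hd w (by simp [hw])
  choose! gg dd hgd using key
  let Φ : (V → V) → (V → V) × (Fin L → V) × (Fin L → V) :=
    fun f => (gg f, dd f, fun j => f (dd f j))
  have hmaps : ∀ f ∈ nearSet G, Φ f ∈ (perfSet G) ×ˢ (univ : Finset ((Fin L → V) × (Fin L → V))) := by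
    intro f hf
    simp only [Φ, mem_product, mem_univ, and_true, perfSet, mem_filter, true_and]
    exact (hgd f hf).1
  have hinj : Set.InjOn Φ (nearSet G : Set (V → V)) := by
    intro f₁ hf₁ f₂ hf₂ h
    simp only [Φ, Prod.mk.injEq] at h
    obtain ⟨h1, h2, h3⟩ := h
    funext w
    by_cases c1 : gg f₁ w = f₁ w
    · by_cases c2 : gg f₂ w = f₂ w
      · rw [← c1, ← c2, h1]
      · obtain ⟨j, hj⟩ := (hgd f₂ hf₂).2 w c2
        have := congrFun h3 j
        rw [h2, hj] at this
        exact this
    · obtain ⟨j, hj⟩ := (hgd f₁ hf₁).2 w c1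
      have := congrFun h3 j
      rw [← h2, hj] at this
      exact this
  have hcard := Finset.card_le_card_of_injOn Φ hmaps hinj
  rw [card_product] at hcard
  have hc2 : (univ : Finset ((Fin L → V) × (Fin L → V))).card
      = (Fintype.card V) ^ (4 * (k + 1) ^ 2) := by
    rw [card_univ, Fintype.card_prod, Fintype.card_fun, Fintype.card_fin, ← pow_add]
    congr 1
    omega
  rw [hc2] at hcard
  rw [mul_comm]
  exact hcard

end Vale.Agent.Lib.P308.helper16
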