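import Vale.Agent.Lib.P308.helper16.Surgery

/-!
# P308: in a graph with independence number at most `k`, every matching missing two
vertices is close to a perfect matching (if one exists)
-/

namespace Vale.Agent.Lib.P308.helper16

open Function Finset

variable {V : Type*} [DecidableEq V]

/-- among more than `k` distinct vertices two are adjacent -/
theorem exists_adj_of_injOn {G : SimpleGraph V} {k : ℕ}
    (hα : ∀ s : Finset V, G.IsIndepSet (s : Set V) → s.card ≤ k)
    (T : Finset ℕ) (y : ℕ → V) (hy : Set.InjOn y T) (hT : k < T.card) :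
    ∃ a ∈ T, ∃ b ∈ T, a < b ∧ G.Adj (y a) (y b) := by
  by_contra hcon
  push Not at hcon
  have hind : G.IsIndepSet ((T.image y : Finset V) : Set V) := by
    rw [SimpleGraph.isIndepSet_iff]
    intro p hp q hq hpq hadj
    simp only [coe_image, Set.mem_image, mem_coe] at hp hq
    obtain ⟨a, ha, rfl⟩ := hp
    obtain ⟨b, hb, rfl⟩ := hq
    rcases lt_trichotomy a b with h | h | h
    · exact hcon a ha b hb h hadj
    · exact hpq (by rw [h])
    · exact hcon b hb a ha h hadj.symm
  have := hα _ hind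
  rw [card_image_of_injOn hy] at this
  omega

theorem exists_shortcut {G : SimpleGraph V} {k : ℕ}
    (hα : ∀ s : Finset V, G.IsIndepSet (s : Set V) → s.card ≤ k)
    (l : ℕ) (x : ℕ → V)
    (hinj : ∀ s t, s < 2 * l + 2 → t < 2 * l + 2 → x s = x t → s = t)
    (hl : (k + 1) ^ 2 ≤ l + 1) :
    ∃ i a b, i < a ∧ a < b ∧ b ≤ l ∧ G.Adj (x i) (x b) ∧
      G.Adj (x (2 * l + 1 - a)) (x (2 * l + 1 - b)) := by
  have hsq : (k + 1) ^ 2 = k * (k + 1) + (k + 1) := by ring
  have hwin : ∀ j, j ≤ k → ∃ a b, j * (k + 1) ≤ a ∧ a < b ∧ b ≤ j * (k + 1) + k ∧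
      G.Adj (x (2 * l + 1 - a)) (x (2 * l + 1 - b)) := by
    intro j hj
    have hjk : j * (k + 1) ≤ k * (k + 1) := Nat.mul_le_mul_right _ hj
    have hy : Set.InjOn (fun t => x (2 * l + 1 - t))
        (Finset.Icc (j * (k + 1)) (j * (k + 1) + k) : Finset ℕ) := by
      intro s hs t ht hst
      simp only [coe_Icc, Set.mem_Icc] at hs ht
      have := hinj _ _ (by omega) (by omega) hst
      omega
    obtain ⟨a, ha, b, hb, hab, hadj⟩ := exists_adj_of_injOn hα
      (Finset.Icc (j * (k + 1)) (j * (k + 1) + k)) (fun t => x (2 * l + 1 - t)) hy (by rw [Nat.card_Icc]; omega)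
    rw [mem_Icc] at ha hb
    exact ⟨a, b, ha.1, hab, hb.2, hadj⟩
  choose! A B hA using hwin
  have key : ∀ s t, s ≤ k → t ≤ k → s < t → B s < B t := by
    intro s t hs ht hst
    obtain ⟨h1, h2, h3, h4⟩ := hA s hs
    obtain ⟨h1', h2', h3', h4'⟩ := hA t ht
    have e1 : (s + 1) * (k + 1) ≤ t * (k + 1) := Nat.mul_le_mul_right _ hst
    have e3 : (s + 1) * (k + 1) = s * (k + 1) + (k + 1) := by ring
    omega
  have hB : ∀ s, s ≤ k → B s < 2 * l + 2 := by
    intro s hs
    obtain ⟨h1, h2, h3, h4⟩ := hA s hs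
    have e2 : s * (k + 1) ≤ k * (k + 1) := Nat.mul_le_mul_right _ hs
    omega
  have hy : Set.InjOn (fun j => x (B j)) (Finset.range (k + 1) : Finset ℕ) := by
    intro s hs t ht hst
    simp only [coe_range, Set.mem_Iio] at hs ht
    have hBst := hinj _ _ (hB s (by omega)) (hB t (by omega)) hst
    rcases lt_trichotomy s t with h | h | h
    · have := key s t (by omega) (by omega) h
      omega
    · exact h
    · have := key t s (by omega) (by omega) h
      omega
  obtain ⟨j, hj, j', hj', hjj', hadj⟩ := exists_adj_of_injOn hα (Finset.range (k + 1))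
    (fun j => x (B j)) hy (by simp)
  rw [mem_range] at hj hj'
  obtain ⟨h1, h2, h3, h4⟩ := hA j (by omega)
  obtain ⟨h1', h2', h3', h4'⟩ := hA j' (by omega)
  have e1 : (j + 1) * (k + 1) ≤ j' * (k + 1) := Nat.mul_le_mul_right _ hjj'
  have e2 : j' * (k + 1) ≤ k * (k + 1) := Nat.mul_le_mul_right _ (by omega)
  have e3 : (j + 1) * (k + 1) = j * (k + 1) + (k + 1) := by ring
  exact ⟨B j, A j', B j', by omega, h2', by omega, hadj, h4'⟩

/-- **Key lemma.** If every independent set has at most `k` vertices and `G` has a perfect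
matching, then every matching `f` missing exactly the two vertices `u, v` differs from some
perfect matching in at most `2 (k+1)^2` vertices. -/
theorem exists_close_perfect [Fintype V] {G : SimpleGraph V} {k : ℕ}
    (hα : ∀ s : Finset V, G.IsIndepSet (s : Set V) → s.card ≤ k)
    {f : V → V} (hf : IsMate G f) {u v : V} (hfix : ∀ w, f w = w ↔ (w = u ∨ w = v))
    (hex : ∃ g, IsPerf G g) :
    ∃ g, IsPerf G g ∧ (univ.filter (fun w => g w ≠ f w)).card ≤ 2 * (k + 1) ^ 2 := by
  classical
  let P : ℕ → Prop := fun n => ∃ g, IsPerf G g ∧ (univ.filter (fun w => g w ≠ f w)).card = n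
  have hP : ∃ n, P n := by
    obtain ⟨g, hg⟩ := hex
    exact ⟨_, g, hg, rfl⟩
  obtain ⟨g, hg, hgn⟩ := Nat.find_spec hP
  have hmin : ∀ g', IsPerf G g' → Nat.find hP ≤ (univ.filter (fun w => g' w ≠ f w)).card :=
    fun g' hg' => Nat.find_min' hP ⟨g', hg', rfl⟩
  obtain ⟨l, x, hx0, hxl, hinj, hgx, hfx⟩ := orbit_structure hf.invol hg.1.invol hg.2 hfix
  have hfu : f u = u := (hfix u).2 (Or.inl rfl)
  have hu : ∃ s, s < 2 * l + 2 ∧ x s = u := ⟨0, by omega, hx0⟩
  have hv : ∃ s, s < 2 * l + 2 ∧ x s = v := ⟨l + 1, by omega, hxl⟩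
  have hclosed : ∀ s, s < 2 * l + 2 → ∃ t, t < 2 * l + 2 ∧ f (x s) = x t := by
    intro s hs
    rcases Nat.eq_zero_or_pos s with rfl | hpos
    · exact ⟨0, by omega, by rw [hx0, hfu]⟩
    · exact ⟨2 * l + 2 - s, by omega, hfx s hpos hs⟩
  have hdis : ∀ s, s < 2 * l + 2 → g (x s) ≠ f (x s) := by
    intro s hs heq
    rw [hgx s hs] at heq
    rcases Nat.eq_zero_or_pos s with rfl | hpos
    · rw [hx0, hfu, ← hx0] at heq
      have := hinj _ _ (by omega) (by omega) heq
      omega
    · rw [hfx s hpos hs] at heq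
      have := hinj _ _ (by omega) (by omega) heq
      omega
  have hm_le : 2 * l + 2 ≤ Nat.find hP := by
    rw [← hgn]
    have hc : ((range (2 * l + 2)).image x).card = 2 * l + 2 := by
      rw [card_image_of_injOn, card_range]
      intro s hs t ht hst
      simp only [coe_range, Set.mem_Iio] at hs ht
      exact hinj s t hs ht hst
    rw [← hc]
    apply card_le_card
    intro w hw
    simp only [mem_image, mem_range] at hw
    obtain ⟨s, hs, rfl⟩ := hw
    simp only [mem_filter, mem_univ, true_and]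
    exact hdis s hs
  have hlk : l + 1 < (k + 1) ^ 2 := by
    by_contra hcon
    push Not at hcon
    obtain ⟨i, a, b, hia, hab, hbl, hadj1, hadj2⟩ := exists_shortcut hα l x hinj hcon
    have hρ : ∀ s, s < 2 * l + 2 → rho l i a b s < 2 * l + 2 ∧
        rho l i a b (rho l i a b s) = s ∧ G.Adj (x s) (x (rho l i a b s)) := by
      intro s hs
      refine ⟨rho_lt hia hab hbl hs, rho_rho hia hab hbl hs, ?_⟩
      rcases rho_val l i a b s with h | h | h | h | h | h
      · rw [h.2, h.1]; exact hadj1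
      · rw [h.2.2, h.2.1]; exact hadj1.symm
      · obtain ⟨-, -, h3, h4⟩ := h
        rw [h4, h3]; exact hadj2
      · obtain ⟨-, -, -, h3, h4⟩ := h
        rw [h4, h3]; exact hadj2.symm
      · obtain ⟨h1, h2, h3, h4, h5, h6⟩ := h
        rw [h6]
        have hs1 : 1 ≤ s := by omega
        rw [← hfx s hs1 hs]
        apply hf.adj
        intro hfix'
        rw [hfx s hs1 hs] at hfix'
        have := hinj _ _ (by omega) hs hfix'
        omega
      · obtain ⟨h1, h2, h3, h4, h5, h6⟩ := h
        rw [h6, ← hgx s hs]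
        exact hg.1.adj _ (hg.2 _)
    obtain ⟨g', hg', hD⟩ := surgery hf hfix (2 * l + 2) x hinj hu hv hclosed (rho l i a b) hρ
    have h1 := hmin g' hg'
    have h2 : (univ.filter (fun w => g' w ≠ f w)).card ≤ 2 * l + 1 := by
      have hsub : (univ.filter (fun w => g' w ≠ f w)) ⊆
          ((range (2 * l + 2)).erase (i + 1)).image x := by
        intro w hw
        simp only [mem_filter, mem_univ, true_and] at hw
        obtain ⟨s, hs, hsw, hne⟩ := hD w hw
        simp only [mem_image, mem_erase, mem_range]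
        refine ⟨s, ⟨?_, hs⟩, hsw⟩
        rintro rfl
        apply hne
        rw [rho_special hia hab hbl, hfx (i + 1) (by omega) (by omega)]
      calc _ ≤ (((range (2 * l + 2)).erase (i + 1)).image x).card := card_le_card hsub
        _ ≤ ((range (2 * l + 2)).erase (i + 1)).card := card_image_le
        _ = 2 * l + 1 := by
          rw [card_erase_of_mem (by simp; omega), card_range]; omega
    omega
  have hρ₀ : ∀ s, s < 2 * l + 2 → (fun s => 2 * l + 1 - s) s < 2 * l + 2 ∧
      (fun s => 2 * l + 1 - s) ((fun s => 2 * l + 1 - s) s) = s ∧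
      G.Adj (x s) (x ((fun s => 2 * l + 1 - s) s)) := by
    intro s hs
    refine ⟨by show 2 * l + 1 - s < 2 * l + 2; omega,
      by show 2 * l + 1 - (2 * l + 1 - s) = s; omega, ?_⟩
    show G.Adj (x s) (x (2 * l + 1 - s))
    rw [← hgx s hs]
    exact hg.1.adj _ (hg.2 _)
  obtain ⟨g₀, hg₀, hD⟩ := surgery hf hfix (2 * l + 2) x hinj hu hv hclosed
    (fun s => 2 * l + 1 - s) hρ₀
  refine ⟨g₀, hg₀, ?_⟩
  have hsub : (univ.filter (fun w => g₀ w ≠ f w)) ⊆ (range (2 * l + 2)).image x := by
    intro w hw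
    simp only [mem_filter, mem_univ, true_and] at hw
    obtain ⟨s, hs, hsw, -⟩ := hD w hw
    simp only [mem_image, mem_range]
    exact ⟨s, hs, hsw⟩
  calc _ ≤ ((range (2 * l + 2)).image x).card := card_le_card hsub
    _ ≤ (range (2 * l + 2)).card := card_image_le
    _ = 2 * l + 2 := card_range _
    _ ≤ 2 * (k + 1) ^ 2 := by omega

end Vale.Agent.Lib.P308.helper16
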