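import Mathlib

/-!
# P308: matchings as mate functions, and the orbit structure of `f ∘ g`

A matching of a simple graph is encoded by its mate function `f : V → V`
(an involution with `f v = v` or `v ~ f v`).  For a matching `f` with exactly two
unmatched vertices `u, v` and a perfect matching `g`, the orbit of `u` under `f ∘ g`
is the alternating path from `u` to `v`.
-/

namespace Vale.Agent.Lib.P308.helper16

open Function

variable {V : Type*}

/-- mate function of a matching of `G`: an involution moving a vertex only to a neighbour -/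
structure IsMate (G : SimpleGraph V) (f : V → V) : Prop where
  invol : ∀ v, f (f v) = v
  adj : ∀ v, f v ≠ v → G.Adj v (f v)

/-- mate function of a perfect matching -/
def IsPerf (G : SimpleGraph V) (f : V → V) : Prop := IsMate G f ∧ ∀ v, f v ≠ v

theorem orbit_structure [Finite V] {f g : V → V} (hf : ∀ v, f (f v) = v) (hg : ∀ v, g (g v) = v)
    (hgfix : ∀ v, g v ≠ v) {u v : V} (hfix : ∀ w, f w = w ↔ (w = u ∨ w = v)) :
    ∃ (l : ℕ) (x : ℕ → V),
      x 0 = u ∧ x (l + 1) = v ∧
      (∀ s t, s < 2 * l + 2 → t < 2 * l + 2 → x s = x t → s = t) ∧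
      (∀ s, s < 2 * l + 2 → g (x s) = x (2 * l + 1 - s)) ∧
      (∀ s, 1 ≤ s → s < 2 * l + 2 → f (x s) = x (2 * l + 2 - s)) := by
  classical
  set h : V → V := fun y => f (g y) with hh
  have hfinj : Injective f := fun a b hab => by rw [← hf a, ← hf b, hab]
  have hginj : Injective g := fun a b hab => by rw [← hg a, ← hg b, hab]
  have hinj : Injective h := fun a b hab => hginj (hfinj hab)
  set x : ℕ → V := fun s => h^[s] u with hx
  set m := minimalPeriod h u with hm
  have hmpos : 0 < m := minimalPeriod_pos_of_mem_periodicPts (hinj.mem_periodicPts u)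
  have hxm : x m = u := isPeriodicPt_minimalPeriod h u
  have hx0 : x 0 = u := rfl
  have hxs : ∀ s, x (s + 1) = f (g (x s)) := fun s => by
    simp only [hx, iterate_succ_apply', hh]
  have hxinj : ∀ s t, s < m → t < m → x s = x t → s = t := fun s t hs ht hst =>
    iterate_injOn_Iio_minimalPeriod (f := h) (x := u) hs ht hst
  have hfu : f u = u := (hfix u).2 (Or.inl rfl)
  -- g (x s) = x (m - 1 - s)
  have hgx : ∀ s, s < m → g (x s) = x (m - 1 - s) := by
    intro s
    induction s with
    | zero =>
      intro _
      have h1 : f (g (x (m - 1))) = f u := by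
        rw [← hxs, hfu]
        have : m - 1 + 1 = m := by omega
        rw [this, hxm]
      have h2 : g (x (m - 1)) = u := hfinj h1
      have h3 : x (m - 1) = g u := by rw [← h2, hg]
      simp [hx0, h3]
    | succ s ih =>
      intro hs
      have ih' := ih (by omega)
      have h1 : x (m - 1 - s) = f (g (x (m - 1 - (s + 1)))) := by
        rw [← hxs]
        congr 1
        omega
      rw [hxs, ih', h1, hf, hg]
  have hfx : ∀ s, 1 ≤ s → s < m → f (x s) = x (m - s) := by
    intro s hs1 hsm
    obtain ⟨t, rfl⟩ : ∃ t, s = t + 1 := ⟨s - 1, by omega⟩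
    rw [hxs, hf, hgx t (by omega)]
    congr 1
    omega
  -- m is even
  have hmeven : ∃ l, m = 2 * l + 2 := by
    rcases Nat.even_or_odd' m with ⟨t, ht | ht⟩
    · exact ⟨t - 1, by omega⟩
    · exfalso
      have := hgx t (by omega)
      have h2 : m - 1 - t = t := by omega
      rw [h2] at this
      exact hgfix _ this
  obtain ⟨l, hl⟩ := hmeven
  refine ⟨l, x, hx0, ?_, ?_, ?_, ?_⟩
  · have h1 : f (x (l + 1)) = x (l + 1) := by
      rw [hfx (l + 1) (by omega) (by omega)]
      congr 1
      omega
    rcases (hfix _).1 h1 with h2 | h2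
    · exfalso
      have := hxinj (l + 1) 0 (by omega) (by omega) (by rw [h2, hx0])
      omega
    · exact h2
  · intro s t hs ht
    exact hxinj s t (by omega) (by omega)
  · intro s hs
    rw [hgx s (by omega)]
    congr 1
    omega
  · intro s hs1 hs
    rw [hfx s hs1 (by omega)]
    congr 1
    omega

end Vale.Agent.Lib.P308.helper16
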