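import Vale.Agent.Lib.P308.helper16.Orbit

/-!
# P308: surgery along the alternating path, and the short-cut lemma
-/

namespace Vale.Agent.Lib.P308.helper16

open Function Finset

variable {V : Type*}

/-- Replace the matching on the orbit `x 0, …, x (m-1)` by the index involution `ρ`,
keep `f` elsewhere. -/
theorem surgery {G : SimpleGraph V} {f : V → V} (hfm : IsMate G f) {u v : V}
    (hfix : ∀ w, f w = w ↔ (w = u ∨ w = v))
    (m : ℕ) (x : ℕ → V) (hinj : ∀ s t, s < m → t < m → x s = x t → s = t)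
    (hu : ∃ s, s < m ∧ x s = u) (hv : ∃ s, s < m ∧ x s = v)
    (hclosed : ∀ s, s < m → ∃ t, t < m ∧ f (x s) = x t)
    (ρ : ℕ → ℕ) (hρ : ∀ s, s < m → ρ s < m ∧ ρ (ρ s) = s ∧ G.Adj (x s) (x (ρ s))) :
    ∃ g' : V → V, IsPerf G g' ∧
      ∀ w, g' w ≠ f w → ∃ s, s < m ∧ x s = w ∧ x (ρ s) ≠ f (x s) := by
  classical
  let g' : V → V := fun w => if h : ∃ s, s < m ∧ x s = w then x (ρ h.choose) else f w
  have hg'x : ∀ s, s < m → g' (x s) = x (ρ s) := by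
    intro s hs
    have h : ∃ t, t < m ∧ x t = x s := ⟨s, hs, rfl⟩
    simp only [g', dif_pos h]
    have := hinj _ _ h.choose_spec.1 hs h.choose_spec.2
    rw [this]
  have hg'n : ∀ w, (¬ ∃ s, s < m ∧ x s = w) → g' w = f w := by
    intro w hw
    simp only [g', dif_neg hw]
  have hfn : ∀ w, (¬ ∃ s, s < m ∧ x s = w) → ¬ ∃ s, s < m ∧ x s = f w := by
    intro w hw ⟨s, hs, hsw⟩
    obtain ⟨t, ht, hft⟩ := hclosed s hs
    apply hw
    refine ⟨t, ht, ?_⟩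
    rw [← hft, hsw, hfm.invol]
  refine ⟨g', ⟨⟨?_, ?_⟩, ?_⟩, ?_⟩
  · intro w
    by_cases hw : ∃ s, s < m ∧ x s = w
    · obtain ⟨s, hs, rfl⟩ := hw
      rw [hg'x s hs, hg'x (ρ s) (hρ s hs).1, (hρ s hs).2.1]
    · rw [hg'n w hw, hg'n (f w) (hfn w hw), hfm.invol]
  · intro w hne
    by_cases hw : ∃ s, s < m ∧ x s = w
    · obtain ⟨s, hs, rfl⟩ := hw
      rw [hg'x s hs]
      exact (hρ s hs).2.2
    · rw [hg'n w hw] at hne ⊢
      exact hfm.adj w hne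
  · intro w
    by_cases hw : ∃ s, s < m ∧ x s = w
    · obtain ⟨s, hs, rfl⟩ := hw
      rw [hg'x s hs]
      exact ((hρ s hs).2.2).ne'
    · rw [hg'n w hw]
      intro hfw
      rcases (hfix w).1 hfw with rfl | rfl
      · exact hw hu
      · exact hw hv
  · intro w hne
    by_cases hw : ∃ s, s < m ∧ x s = w
    · obtain ⟨s, hs, rfl⟩ := hw
      refine ⟨s, hs, rfl, ?_⟩
      rwa [hg'x s hs] at hne
    · exact absurd (hg'n w hw) hne

/-- index involution of the short-cut -/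
def rho (l i a b : ℕ) (s : ℕ) : ℕ :=
  if s = i then b else if s = b then i
  else if s = 2 * l + 1 - a then 2 * l + 1 - b
  else if s = 2 * l + 1 - b then 2 * l + 1 - a
  else if (i + 1 ≤ s ∧ s ≤ a) ∨ (2 * l + 2 - a ≤ s ∧ s ≤ 2 * l + 1 - i) then 2 * l + 2 - s
  else 2 * l + 1 - s

theorem rho_val (l i a b s : ℕ) :
    (s = i ∧ rho l i a b s = b) ∨
    (s ≠ i ∧ s = b ∧ rho l i a b s = i) ∨
    (s ≠ i ∧ s ≠ b ∧ s = 2 * l + 1 - a ∧ rho l i a b s = 2 * l + 1 - b) ∨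
    (s ≠ i ∧ s ≠ b ∧ s ≠ 2 * l + 1 - a ∧ s = 2 * l + 1 - b ∧ rho l i a b s = 2 * l + 1 - a) ∨
    (s ≠ i ∧ s ≠ b ∧ s ≠ 2 * l + 1 - a ∧ s ≠ 2 * l + 1 - b ∧
      ((i + 1 ≤ s ∧ s ≤ a) ∨ (2 * l + 2 - a ≤ s ∧ s ≤ 2 * l + 1 - i)) ∧
      rho l i a b s = 2 * l + 2 - s) ∨
    (s ≠ i ∧ s ≠ b ∧ s ≠ 2 * l + 1 - a ∧ s ≠ 2 * l + 1 - b ∧
      ¬ ((i + 1 ≤ s ∧ s ≤ a) ∨ (2 * l + 2 - a ≤ s ∧ s ≤ 2 * l + 1 - i)) ∧
      rho l i a b s = 2 * l + 1 - s) := by
  unfold rho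
  by_cases h1 : s = i
  · left; exact ⟨h1, if_pos h1⟩
  by_cases h2 : s = b
  · right; left; exact ⟨h1, h2, by rw [if_neg h1, if_pos h2]⟩
  by_cases h3 : s = 2 * l + 1 - a
  · right; right; left; exact ⟨h1, h2, h3, by rw [if_neg h1, if_neg h2, if_pos h3]⟩
  by_cases h4 : s = 2 * l + 1 - b
  · right; right; right; left
    exact ⟨h1, h2, h3, h4, by rw [if_neg h1, if_neg h2, if_neg h3, if_pos h4]⟩
  by_cases h5 : (i + 1 ≤ s ∧ s ≤ a) ∨ (2 * l + 2 - a ≤ s ∧ s ≤ 2 * l + 1 - i)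
  · right; right; right; right; left
    exact ⟨h1, h2, h3, h4, h5, by rw [if_neg h1, if_neg h2, if_neg h3, if_neg h4, if_pos h5]⟩
  · right; right; right; right; right
    exact ⟨h1, h2, h3, h4, h5, by rw [if_neg h1, if_neg h2, if_neg h3, if_neg h4, if_neg h5]⟩

theorem rho_lt {l i a b s : ℕ} (hia : i < a) (hab : a < b) (hbl : b ≤ l) (hs : s < 2 * l + 2) :
    rho l i a b s < 2 * l + 2 := by
  rcases rho_val l i a b s with h | h | h | h | h | h <;> omega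

theorem rho_rho {l i a b s : ℕ} (hia : i < a) (hab : a < b) (hbl : b ≤ l) (hs : s < 2 * l + 2) :
    rho l i a b (rho l i a b s) = s := by
  have hr := rho_val l i a b (rho l i a b s)
  generalize hrr : rho l i a b (rho l i a b s) = rr at hr ⊢
  have hs' := rho_val l i a b s
  generalize rho l i a b s = r at hr hs'
  rcases hs' with h | h | h | h | h | h <;> rcases hr with h' | h' | h' | h' | h' | h' <;> omega

theorem rho_special {l i a b : ℕ} (hia : i < a) (hab : a < b) (hbl : b ≤ l) :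
    rho l i a b (i + 1) = 2 * l + 2 - (i + 1) := by
  rcases rho_val l i a b (i + 1) with h | h | h | h | h | h <;> omega

end Vale.Agent.Lib.P308.helper16
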